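import Mathlib.Analysis.Complex.CauchyIntegral
import Mathlib.Analysis.Complex.Liouville
import Mathlib.Analysis.Calculus.SmoothSeries

/-! # P284: series of holomorphic functions of several variables. -/

open Filter Set Metric Topology

noncomputable section

namespace Vale.Agent.P284.H248b

variable {E : Type*} [NormedAddCommGroup E] [NormedSpace ℂ E]

/-- Cauchy estimate for the derivative in several variables. -/
theorem norm_fderiv_le {f : E → ℂ} {x : E} {R B : ℝ} (hR : 0 < R) (hB : 0 ≤ B)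
    (hf : DifferentiableOn ℂ f (ball x R)) (hb : ∀ y ∈ ball x R, ‖f y‖ ≤ B) :
    ‖fderiv ℂ f x‖ ≤ 2 * B / R := by
  refine ContinuousLinearMap.opNorm_le_bound _ (by positivity) fun v => ?_
  by_cases hv : v = 0
  · simp [hv]
  have hv0 : 0 < ‖v‖ := norm_pos_iff.2 hv
  -- the radius
  set s : ℝ := R / (2 * ‖v‖) with hs
  have hs0 : 0 < s := by positivity
  have hmem : ∀ t : ℂ, ‖t‖ ≤ s → x + t • v ∈ ball x R := by
    intro t ht
    rw [mem_ball, dist_eq_norm, add_sub_cancel_left, norm_smul]
    have : ‖t‖ * ‖v‖ ≤ s * ‖v‖ := mul_le_mul_of_nonneg_right ht hv0.le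
    have h2 : s * ‖v‖ = R / 2 := by rw [hs]; field_simp
    linarith
  have hdiff : ∀ t : ℂ, ‖t‖ ≤ s → DifferentiableAt ℂ (fun t : ℂ => f (x + t • v)) t := by
    intro t ht
    have h1 : DifferentiableAt ℂ f (x + t • v) :=
      (hf _ (hmem t ht)).differentiableAt (isOpen_ball.mem_nhds (hmem t ht))
    exact h1.comp t (by fun_prop)
  have hder : deriv (fun t : ℂ => f (x + t • v)) 0 = fderiv ℂ f x v := by
    have h1 : HasFDerivAt f (fderiv ℂ f x) (x + (0 : ℂ) • v) := by
      rw [zero_smul, add_zero]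
      exact ((hf x (mem_ball_self hR)).differentiableAt (ball_mem_nhds x hR)).hasFDerivAt
    have h2 : HasDerivAt (fun t : ℂ => x + t • v) v 0 := by
      simpa using ((hasDerivAt_id (0 : ℂ)).smul_const v).const_add x
    exact (h1.comp_hasDerivAt (0 : ℂ) h2).deriv
  have hdc : DiffContOnCl ℂ (fun t : ℂ => f (x + t • v)) (ball 0 s) := by
    refine DifferentiableOn.diffContOnCl fun t ht => ?_
    rw [closure_ball _ hs0.ne', mem_closedBall, dist_zero_right] at ht
    exact (hdiff t ht).differentiableWithinAt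
  have key := Complex.norm_deriv_le_of_forall_mem_sphere_norm_le (c := (0 : ℂ)) hs0 hdc
    (C := B) (fun t ht => hb _ (hmem t (by rw [mem_sphere, dist_zero_right] at ht; exact ht.le)))
  rw [hder] at key
  calc ‖fderiv ℂ f x v‖ ≤ B / s := key
    _ = 2 * B / R * ‖v‖ := by rw [hs]; field_simp

/-- A locally normally convergent series of holomorphic functions is holomorphic. -/
theorem differentiableOn_tsum {ι : Type*} {f : ι → E → ℂ} {s : Set E} (hs : IsOpen s)
    (hf : ∀ i, DifferentiableOn ℂ (f i) s)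
    (hb : ∀ x ∈ s, ∃ (R : ℝ) (u : ι → ℝ), 0 < R ∧ Summable u ∧
      ∀ y ∈ ball x R, y ∈ s → ∀ i, ‖f i y‖ ≤ u i) :
    DifferentiableOn ℂ (fun x => ∑' i, f i x) s := by
  intro x hx
  obtain ⟨R₀, u, hR₀, hu, hbd⟩ := hb x hx
  obtain ⟨R₁, hR₁, hsub⟩ := Metric.isOpen_iff.1 hs x hx
  set R := min R₀ R₁ / 2 with hR
  have hRpos : 0 < R := by positivity
  have h2R : ∀ y ∈ ball x R, ball y R ⊆ ball x R₀ ∩ s := by
    intro y hy z hz
    have : dist z x < min R₀ R₁ := by
      have h1 := dist_triangle z y x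
      rw [mem_ball] at hy hz
      have : R + R = min R₀ R₁ := by rw [hR]; ring
      linarith
    exact ⟨mem_ball.2 (this.trans_le (min_le_left _ _)),
      hsub (mem_ball.2 (this.trans_le (min_le_right _ _)))⟩
  have hu0 : ∀ i, 0 ≤ u i := fun i =>
    (norm_nonneg _).trans (hbd x (mem_ball_self hR₀) hx i)
  have hmain : HasFDerivAt (fun y => ∑' i, f i y) (∑' i, fderiv ℂ (f i) x) x := by
    refine hasFDerivAt_tsum_of_isPreconnected (u := fun i => 2 * u i / R) (𝕜 := ℂ)
      ((hu.mul_left 2).div_const R) isOpen_ball (convex_ball x R).isPreconnected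
      (f' := fun i y => fderiv ℂ (f i) y) (x₀ := x)
      (fun i y hy => ?_) (fun i y hy => ?_) (mem_ball_self hRpos) ?_ (mem_ball_self hRpos)
    · have hys : y ∈ s := (h2R y hy (mem_ball_self hRpos)).2
      exact ((hf i y hys).differentiableAt (hs.mem_nhds hys)).hasFDerivAt
    · exact norm_fderiv_le hRpos (hu0 i) ((hf i).mono fun z hz => (h2R y hy hz).2)
        fun z hz => hbd z (h2R y hy hz).1 (h2R y hy hz).2 i
    · exact Summable.of_norm_bounded hu fun i => hbd x (mem_ball_self hR₀) hx i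
  exact hmain.differentiableAt.differentiableWithinAt

end Vale.Agent.P284.H248b
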