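import Vale.Agent.P284.H894.SpecSub
import Vale.Agent.P284.H248b.Hol

/-! # P284, block E1: the Poincaré series. -/

open Filter Set Metric Topology

noncomputable section

namespace Vale.Agent.P284.H248b

open Vale.Agent.P272.K Vale.Agent.P284.H894

theorem pow_bound {Γ : Type} {ρ : Γ → ℝ} (h0 : ∀ γ, 0 ≤ ρ γ) (hs : Summable fun γ => ρ γ ^ 2)
    {k : ℕ} (hk : 2 ≤ k) : Summable fun γ => ρ γ ^ k := by
  obtain ⟨j, rfl⟩ := Nat.exists_eq_add_of_le hk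
  obtain ⟨M, hM⟩ : ∃ M : ℝ, ∀ γ, ρ γ ^ 2 ≤ M := by
    refine ⟨∑' γ, ρ γ ^ 2, fun γ => ?_⟩
    exact hs.le_tsum γ fun j _ => sq_nonneg _
  have hM0 : ∀ γ, ρ γ ≤ Real.sqrt M := fun γ => Real.le_sqrt_of_sq_le (hM γ)
  refine Summable.of_nonneg_of_le (fun γ => pow_nonneg (h0 γ) _) (fun γ => ?_)
    (hs.mul_right (Real.sqrt M ^ j))
  rw [pow_add]
  exact mul_le_mul_of_nonneg_left (pow_le_pow_left₀ (h0 γ) (hM0 γ) j) (sq_nonneg _)

theorem e1 : E1Stmt := by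
  intro hE0 n Γ _ C q w τ hτ
  obtain ⟨⟨ρ, hρ0, hρs, hρ⟩, γ₀, a₀, z₀, hz₀, v₀, hne⟩ := hτ
  obtain ⟨k, hk, hsum⟩ := hE0 Γ (fun γ => τ.τ γ a₀ z₀ v₀) (by
    refine Summable.of_nonneg_of_le (fun γ => sq_nonneg _) (fun γ => ?_)
      (hρs.mul_right ((‖v₀‖ ^ q) ^ 2))
    rw [← mul_pow]
    exact pow_le_pow_left₀ (norm_nonneg _) (hρ γ a₀ z₀ hz₀ v₀) 2) ⟨γ₀, hne⟩
  have hpow : Summable fun γ => ρ γ ^ k := pow_bound hρ0 hρs hk
  have hopen : ∀ a : C.I, IsOpen (C.V a ×ˢ (univ : Set (Cm n))) := fun a =>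
    isOpen_ball.prod isOpen_univ
  refine ⟨k, ⟨fun a z v => ∑' γ, τ.τ γ a z v ^ k, fun a => ?_, ?_, ?_⟩, by omega, ?_⟩
  · refine differentiableOn_tsum (f := fun γ (p : Cm n × Cm n) => τ.τ γ a p.1 p.2 ^ k) (hopen a)
      (fun γ => (τ.holo γ a).pow k) fun x hx => ?_
    refine ⟨1, fun γ => ρ γ ^ k * ((‖x.2‖ + 1) ^ q) ^ k, one_pos, hpow.mul_right _, ?_⟩
    intro y hy hyV γ
    show ‖τ.τ γ a y.1 y.2 ^ k‖ ≤ ρ γ ^ k * ((‖x.2‖ + 1) ^ q) ^ k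
    rw [norm_pow, ← mul_pow]
    have hyn : ‖y.2‖ ≤ ‖x.2‖ + 1 := by
      have h1 : ‖y.2 - x.2‖ ≤ 1 := by
        have : ‖y - x‖ < 1 := by rw [← dist_eq_norm]; exact hy
        exact ((norm_snd_le (y - x)).trans this.le)
      have h2 : ‖y.2‖ ≤ ‖y.2 - x.2‖ + ‖x.2‖ := by
        simpa using norm_add_le (y.2 - x.2) x.2
      linarith
    refine pow_le_pow_left₀ (norm_nonneg _) ?_ k
    refine (hρ γ a y.1 hyV.1 y.2).trans ?_
    exact mul_le_mul_of_nonneg_left (pow_le_pow_left₀ (norm_nonneg _) hyn q) (hρ0 γ)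
  · intro a z hz t v
    have h1 : ∀ γ, τ.τ γ a z (t • v) ^ k = t ^ (q * k) * τ.τ γ a z v ^ k := by
      intro γ
      rw [τ.homog γ a z hz, mul_pow, ← pow_mul]
    simp only [h1, tsum_mul_left]
  · intro a b z hz hza hzb v
    have h1 : ∀ γ, τ.τ γ a z v ^ k = C.g a b z ^ (w * k) *
        (fun γ' => τ.τ γ' b (C.T a b z) (fderiv ℂ (C.T a b) z v) ^ k)
          (Equiv.mulRight (C.κ a b z) γ) := by
      intro γ
      rw [τ.change γ a b z hz hza hzb, mul_pow, ← pow_mul]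
      rfl
    simp only [h1, tsum_mul_left]
    congr 1
    exact (Equiv.mulRight (C.κ a b z)).tsum_eq
      (fun γ' => τ.τ γ' b (C.T a b z) (fderiv ℂ (C.T a b) z v) ^ k)
  · exact ⟨a₀, z₀, hz₀, v₀, hsum⟩

end Vale.Agent.P284.H248b
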